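import Vale.Agent.P123.Defs

namespace Vale.Agent.P123
open scoped InnerProductSpace ComplexConjugate
open Polynomial

variable {H : Type*} [NormedAddCommGroup H] [InnerProductSpace ℂ H]

lemma homog_bound (T : H →L[ℂ] H) (M : ℝ)
    (h : ∀ x : H, ‖x‖ = 1 → ‖⟪x, T x⟫_ℂ‖ ≤ M) (x : H) : ‖⟪x, T x⟫_ℂ‖ ≤ M * ‖x‖ ^ 2 := by
  by_cases hx : x = 0
  · simp [hx]
  have hn : ‖x‖ ≠ 0 := by simpa using hx
  have h1 := h ((‖x‖⁻¹ : ℂ) • x) (by
    rw [norm_smul]; simp [hn])
  rw [map_smul, inner_smul_left, inner_smul_right] at h1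
  simp only [map_inv₀, Complex.conj_ofReal, norm_mul, norm_inv, Complex.norm_real, norm_norm] at h1
  have hpos : 0 < ‖x‖ := by positivity
  have : ‖⟪x, T x⟫_ℂ‖ = ‖x‖ ^ 2 * (‖x‖⁻¹ * (‖x‖⁻¹ * ‖⟪x, T x⟫_ℂ‖)) := by
    field_simp
  rw [this]
  nlinarith [sq_nonneg ‖x‖]

lemma norm_le_two_mul_of_numRadius (T : H →L[ℂ] H) (M : ℝ) (hM : 0 ≤ M)
    (h : ∀ x : H, ‖x‖ = 1 → ‖⟪x, T x⟫_ℂ‖ ≤ M) : ‖T‖ ≤ 2 * M := by
  have hh := homog_bound T M h
  have hh' : ∀ z : H, ‖⟪T z, z⟫_ℂ‖ ≤ M * ‖z‖ ^ 2 := by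
    intro z
    rw [← inner_conj_symm, RCLike.norm_conj]
    exact hh z
  have key : ∀ x y : H, ‖⟪T y, x⟫_ℂ‖ ≤ M * (‖x‖ ^ 2 + ‖y‖ ^ 2) := by
    intro x y
    have hpol := inner_map_polarization (T : H →ₗ[ℂ] H) x y
    simp only [ContinuousLinearMap.coe_coe] at hpol
    rw [hpol]
    have e1 : ‖x + y‖ ^ 2 + ‖x - y‖ ^ 2 = 2 * (‖x‖ ^ 2 + ‖y‖ ^ 2) := by
      have := parallelogram_law_with_norm ℂ x y
      nlinarith
    have e2 : ‖x + Complex.I • y‖ ^ 2 + ‖x - Complex.I • y‖ ^ 2 = 2 * (‖x‖ ^ 2 + ‖y‖ ^ 2) := by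
      have := parallelogram_law_with_norm ℂ x (Complex.I • y)
      rw [norm_smul] at this
      simp only [Complex.norm_I, one_mul] at this
      nlinarith
    rw [norm_div]
    have h4 : ‖(4 : ℂ)‖ = 4 := by simp
    rw [h4, div_le_iff₀ (by norm_num)]
    calc _ ≤ ‖⟪T (x + y), x + y⟫_ℂ‖ + ‖⟪T (x - y), x - y⟫_ℂ‖
          + ‖Complex.I * ⟪T (x + Complex.I • y), x + Complex.I • y⟫_ℂ‖
          + ‖Complex.I * ⟪T (x - Complex.I • y), x - Complex.I • y⟫_ℂ‖ := by
          refine (norm_sub_le _ _).trans ?_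
          gcongr
          refine (norm_add_le _ _).trans ?_
          gcongr
          exact norm_sub_le _ _
      _ ≤ M * ‖x + y‖ ^ 2 + M * ‖x - y‖ ^ 2 + M * ‖x + Complex.I • y‖ ^ 2
          + M * ‖x - Complex.I • y‖ ^ 2 := by
          simp only [norm_mul, Complex.norm_I, one_mul]
          gcongr <;> exact hh' _
      _ = M * (‖x‖ ^ 2 + ‖y‖ ^ 2) * 4 := by
          have : M * ‖x + y‖ ^ 2 + M * ‖x - y‖ ^ 2 + M * ‖x + Complex.I • y‖ ^ 2
            + M * ‖x - Complex.I • y‖ ^ 2 = M * (‖x + y‖ ^ 2 + ‖x - y‖ ^ 2)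
            + M * (‖x + Complex.I • y‖ ^ 2 + ‖x - Complex.I • y‖ ^ 2) := by ring
          rw [this, e1, e2]; ring
  refine ContinuousLinearMap.opNorm_le_bound _ (by positivity) ?_
  intro y
  by_cases hTy : T y = 0
  · rw [hTy]; simp; positivity
  have hTn : 0 < ‖T y‖ := by simpa using hTy
  have hy : y ≠ 0 := by
    rintro rfl
    simp at hTy
  have hyn : 0 < ‖y‖ := by simpa using hy
  have := key (((‖y‖ / ‖T y‖ : ℝ) : ℂ) • T y) y
  rw [inner_smul_right, inner_self_eq_norm_sq_to_K, norm_smul] at this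
  simp only [norm_mul, Complex.norm_real, norm_div, norm_norm, norm_pow] at this
  have e : ‖y‖ / ‖T y‖ * ‖T y‖ = ‖y‖ := by field_simp
  have e' : ‖y‖ / ‖T y‖ * ‖T y‖ ^ 2 = ‖y‖ * ‖T y‖ := by field_simp
  simp only [Complex.coe_algebraMap, Complex.norm_real, norm_norm] at this
  rw [e, e'] at this
  have h3 : ‖y‖ * ‖T y‖ ≤ ‖y‖ * (2 * M * ‖y‖) := by nlinarith
  exact le_of_mul_le_mul_left h3 hyn

/-- Lagrange decomposition of `1` along the simple roots of `Q`. -/
lemma lagrange_one (Q : ℂ[X]) (hdeg : 0 < Q.natDegree)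
    (hsimple : ∀ r, Q.eval r = 0 → Q.derivative.eval r ≠ 0) :
    ∑ r ∈ Q.roots.toFinset, C (1 / Q.derivative.eval r) * (Q /ₘ (X - C r)) = 1 := by
  classical
  have hQ0 : Q ≠ 0 := by
    rintro rfl
    simp at hdeg
  have hsplit : Q.Splits := IsAlgClosed.splits Q
  have hnodup : Q.roots.Nodup := by
    rw [Multiset.nodup_iff_count_le_one]
    intro r
    rw [count_roots]
    by_contra hcon
    push Not at hcon
    have := (one_lt_rootMultiplicity_iff_isRoot hQ0).1 hcon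
    exact hsimple r this.1 this.2
  have hcard : Q.roots.toFinset.card = Q.natDegree := by
    rw [Multiset.toFinset_card_of_nodup hnodup]
    exact hsplit.natDegree_eq_card_roots.symm
  have hfac : ∀ r, Q.eval r = 0 → (X - C r) * (Q /ₘ (X - C r)) = Q := fun r hr =>
    mul_divByMonic_eq_iff_isRoot.2 hr
  have hdegq : ∀ r, (Q /ₘ (X - C r)).natDegree = Q.natDegree - 1 := by
    intro r
    rw [natDegree_divByMonic _ (monic_X_sub_C r), natDegree_X_sub_C]
  refine eq_of_degrees_lt_of_eval_finset_eq Q.roots.toFinset ?_ ?_ ?_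
  · rw [hcard]
    refine lt_of_le_of_lt (degree_sum_le _ _) ?_
    rw [Finset.sup_lt_iff (by exact WithBot.bot_lt_coe _)]
    intro r _
    refine lt_of_le_of_lt (degree_mul_le _ _) ?_
    refine lt_of_le_of_lt (add_le_add degree_C_le degree_le_natDegree) ?_
    rw [zero_add]
    rw [hdegq]
    exact_mod_cast Nat.sub_lt hdeg one_pos
  · rw [hcard, degree_one]
    exact_mod_cast hdeg
  · intro t ht
    have ht0 : Q.eval t = 0 := by
      have := (mem_roots hQ0).1 (Multiset.mem_toFinset.1 ht)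
      exact this
    rw [eval_finsetSum, eval_one]
    rw [Finset.sum_eq_single t]
    · rw [eval_mul, eval_C]
      have hder : Q.derivative.eval t = (Q /ₘ (X - C t)).eval t := by
        conv_lhs => rw [← hfac t ht0]
        simp [derivative_mul]
      rw [← hder]
      exact one_div_mul_cancel (hsimple t ht0)
    · intro r hr hrt
      have hr0 : Q.eval r = 0 := (mem_roots hQ0).1 (Multiset.mem_toFinset.1 hr)
      have h1 : (t - r) * (Q /ₘ (X - C r)).eval t = 0 := by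
        have := congrArg (eval t) (hfac r hr0)
        simpa [ht0] using this
      have h2 : (Q /ₘ (X - C r)).eval t = 0 := by
        rcases mul_eq_zero.1 h1 with h | h
        · exact absurd (sub_eq_zero.1 h).symm hrt
        · exact h
      rw [eval_mul, h2, mul_zero]
    · intro h; exact absurd ht h

lemma step1 (A : H →L[ℂ] H) (P : ℂ[X]) (hdeg : 0 < P.natDegree) (v : ℂ)
    (hgood : ∀ r, P.eval r = v → P.derivative.eval r ≠ 0)
    (hhalf : ∀ r, P.eval r = v → ∀ y : H,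
      0 ≤ (conj v * P.derivative.eval r * (r * ((‖y‖ ^ 2 : ℝ) : ℂ) - ⟪y, A y⟫_ℂ)).re)
    (x : H) : (conj v * ⟪x, aeval A P x⟫_ℂ).re ≤ ‖v‖ ^ 2 * ‖x‖ ^ 2 := by
  classical
  set Q : ℂ[X] := C v - P with hQ
  have hQdeg : 0 < Q.natDegree := by
    have : Q = -(P - C v) := by rw [hQ]; ring
    rw [this, natDegree_neg, natDegree_sub_C]
    exact hdeg
  have hQ0 : Q ≠ 0 := by
    rintro h
    rw [h] at hQdeg
    simp at hQdeg
  have hQeval : ∀ r, Q.eval r = v - P.eval r := by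
    intro r; simp [hQ]
  have hQder : ∀ r, Q.derivative.eval r = - P.derivative.eval r := by
    intro r; simp [hQ]
  have hroot : ∀ r, Q.eval r = 0 → P.eval r = v := by
    intro r hr
    rw [hQeval] at hr
    exact (sub_eq_zero.1 hr).symm
  have hL := lagrange_one Q hQdeg (by
    intro r hr
    rw [hQder]
    exact neg_ne_zero.2 (hgood r (hroot r hr)))
  -- the vectors
  have hx : x = ∑ r ∈ Q.roots.toFinset,
      (1 / Q.derivative.eval r) • (aeval A (Q /ₘ (X - C r)) x) := by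
    have := congrArg (fun p : ℂ[X] => (aeval A p) x) hL
    simp only [map_sum, map_mul, aeval_C, map_one] at this
    simp only [sum_apply, mul_apply_eq_comp,
      one_apply_eq_self] at this
    refine this.symm.trans ?_
    refine Finset.sum_congr rfl ?_
    intro r _
    simp [Algebra.algebraMap_eq_smul_one]
  have hQx : ∀ r ∈ Q.roots.toFinset, aeval A Q x =
      A (aeval A (Q /ₘ (X - C r)) x) - r • (aeval A (Q /ₘ (X - C r)) x) := by
    intro r hr
    have hr0 : Q.eval r = 0 := (mem_roots hQ0).1 (Multiset.mem_toFinset.1 hr)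
    have hfac : (X - C r) * (Q /ₘ (X - C r)) = Q := mul_divByMonic_eq_iff_isRoot.2 hr0
    conv_lhs => rw [← hfac]
    simp [Algebra.algebraMap_eq_smul_one, sub_mul]
  have hsum : ⟪x, aeval A Q x⟫_ℂ = ∑ r ∈ Q.roots.toFinset,
      conj (1 / Q.derivative.eval r) * (⟪aeval A (Q /ₘ (X - C r)) x,
        A (aeval A (Q /ₘ (X - C r)) x)⟫_ℂ - r * ((‖aeval A (Q /ₘ (X - C r)) x‖ ^ 2 : ℝ) : ℂ)) := by
    conv_lhs => rw [hx]
    rw [sum_inner]
    refine Finset.sum_congr rfl ?_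
    intro r hr
    rw [inner_smul_left, ← hx, hQx r hr, inner_sub_right, inner_smul_right,
      inner_self_eq_norm_sq_to_K]
    simp
  have hQA : aeval A Q x = v • x - aeval A P x := by
    simp [hQ, Algebra.algebraMap_eq_smul_one]
  have hmain : 0 ≤ (conj v * ⟪x, aeval A Q x⟫_ℂ).re := by
    rw [hsum, Finset.mul_sum, Complex.re_sum]
    refine Finset.sum_nonneg ?_
    intro r hr
    have hr0 : Q.eval r = 0 := (mem_roots hQ0).1 (Multiset.mem_toFinset.1 hr)
    have hPr := hroot r hr0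
    have hp := hgood r hPr
    have hh := hhalf r hPr (aeval A (Q /ₘ (X - C r)) x)
    set y := aeval A (Q /ₘ (X - C r)) x
    set p := P.derivative.eval r
    rw [hQder]
    have hnp : 0 < Complex.normSq p := Complex.normSq_pos.2 hp
    have e : conj v * (conj (1 / -p) * (⟪y, A y⟫_ℂ - r * ((‖y‖ ^ 2 : ℝ) : ℂ)))
        = (((Complex.normSq p)⁻¹ : ℝ) : ℂ) * (conj v * p * (r * ((‖y‖ ^ 2 : ℝ) : ℂ) - ⟪y, A y⟫_ℂ)) := by
      have hc : conj p ≠ 0 := by simpa using hp
      have : ((Complex.normSq p : ℝ) : ℂ) = p * conj p := (Complex.mul_conj p).symm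
      rw [Complex.ofReal_inv, this]
      simp only [map_div₀, map_one, map_neg]
      field_simp
      ring
    rw [e, Complex.re_ofReal_mul]
    positivity
  rw [hQA, inner_sub_right, inner_smul_right, inner_self_eq_norm_sq_to_K, mul_sub] at hmain
  have e2 : (conj v * (v * ((‖x‖ : ℂ)) ^ 2)).re = ‖v‖ ^ 2 * ‖x‖ ^ 2 := by
    rw [← mul_assoc, mul_comm (conj v) v, Complex.mul_conj, Complex.normSq_eq_norm_sq]
    norm_cast
  simp only [Complex.sub_re, Complex.coe_algebraMap] at hmain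
  rw [e2] at hmain
  linarith

lemma step2 (ζ : ℂ) (M : ℝ) (hM : 0 < M) (B : Set ℂ) (hB : B.Finite)
    (h : ∀ v : ℂ, ‖v‖ = M → v ∉ B → (conj v * ζ).re ≤ M ^ 2) : ‖ζ‖ ≤ M := by
  by_contra hcon
  push Not at hcon
  have hζ : 0 < ‖ζ‖ := lt_trans hM hcon
  set K : ℂ := ((M / ‖ζ‖ : ℝ) : ℂ) * ζ with hK
  have hKne : K ≠ 0 := by
    rw [hK]
    have : ζ ≠ 0 := by simpa using hζ
    have h2 : ((M / ‖ζ‖ : ℝ) : ℂ) ≠ 0 := by
      exact_mod_cast (div_pos hM hζ).ne'
    exact mul_ne_zero h2 this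
  have hKn : ‖K‖ = M := by
    rw [hK, norm_mul, Complex.norm_real, Real.norm_eq_abs, abs_of_pos (div_pos hM hζ)]
    field_simp
  have hKζ : conj K * ζ = ((M * ‖ζ‖ : ℝ) : ℂ) := by
    rw [hK, map_mul, Complex.conj_ofReal, mul_assoc, mul_comm (conj ζ) ζ, Complex.mul_conj,
      Complex.normSq_eq_norm_sq, ← Complex.ofReal_mul]
    congr 1
    field_simp
  have hden : ∀ s : ℝ, (1 - (s : ℂ) * Complex.I) ≠ 0 := by
    intro s hs
    have := congrArg Complex.re hs
    simp at this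
  have hden' : ∀ s : ℝ, (1 + (s : ℂ) * Complex.I) ≠ 0 := by
    intro s hs
    have := congrArg Complex.re hs
    simp at this
  set f : ℝ → ℂ := fun s => K * ((1 + (s : ℂ) * Complex.I) / (1 - (s : ℂ) * Complex.I)) with hf
  have hinj : Function.Injective f := by
    intro s t hst
    simp only [hf] at hst
    have h1 := mul_left_cancel₀ hKne hst
    rw [div_eq_div_iff (hden s) (hden t)] at h1
    have h2 : (2 * Complex.I) * ((s : ℂ) - t) = 0 := by linear_combination h1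
    have h3 : (s : ℂ) - t = 0 := by
      rcases mul_eq_zero.1 h2 with h | h
      · exfalso
        have := congrArg Complex.im h
        simp at this
      · exact h
    exact_mod_cast sub_eq_zero.1 h3
  have hfin : (f ⁻¹' B).Finite := hB.preimage hinj.injOn
  set ε : ℝ := min 1 ((‖ζ‖ - M) / (‖ζ‖ + M)) with hε
  have hεpos : 0 < ε := by
    rw [hε]
    refine lt_min one_pos (div_pos (by linarith) (by linarith))
  obtain ⟨s, hs, hsB⟩ := (Set.Ioo_infinite hεpos).exists_notMem_finite hfin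
  have hs1 : s < 1 := lt_of_lt_of_le hs.2 (min_le_left _ _)
  have hs2 : s < (‖ζ‖ - M) / (‖ζ‖ + M) := lt_of_lt_of_le hs.2 (min_le_right _ _)
  have hs0 : 0 < s := hs.1
  have hnorm : ‖f s‖ = M := by
    simp only [hf, norm_mul, norm_div, hKn]
    have : ‖1 + (s : ℂ) * Complex.I‖ = ‖1 - (s : ℂ) * Complex.I‖ := by
      have e : (1 - (s : ℂ) * Complex.I) = conj (1 + (s : ℂ) * Complex.I) := by
        simp [sub_eq_add_neg]
      rw [e, RCLike.norm_conj]
    rw [this, div_self (by simpa using hden s), mul_one]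
  have hval := h (f s) hnorm hsB
  have hre : (conj (f s) * ζ).re = M * ‖ζ‖ * ((1 - s ^ 2) / (1 + s ^ 2)) := by
    have e : conj (f s) * ζ = ((M * ‖ζ‖ : ℝ) : ℂ) *
        ((1 - (s : ℂ) * Complex.I) / (1 + (s : ℂ) * Complex.I)) := by
      rw [← hKζ]
      simp only [hf, map_mul, map_div₀, map_add, map_sub, map_one, Complex.conj_ofReal,
        Complex.conj_I]
      ring
    rw [e, Complex.re_ofReal_mul]
    congr 1
    have e2 : (1 - (s : ℂ) * Complex.I) / (1 + (s : ℂ) * Complex.I)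
        = (((1 - s ^ 2) / (1 + s ^ 2) : ℝ) : ℂ) + (((-2 * s) / (1 + s ^ 2) : ℝ) : ℂ) * Complex.I := by
      have h1 : ((1 + s ^ 2 : ℝ) : ℂ) ≠ 0 := by
        exact_mod_cast (by positivity : (1 + s ^ 2 : ℝ) ≠ 0)
      push_cast at h1 ⊢
      rw [div_eq_iff (hden' s)]
      field_simp
      ring_nf
      simp only [Complex.I_sq]
      ring_nf
    rw [e2, Complex.add_re, Complex.ofReal_re, Complex.re_ofReal_mul, Complex.I_re]
    ring
  rw [hre] at hval
  have hpos : 0 < 1 + s ^ 2 := by positivity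
  have h5 : s ^ 2 * (‖ζ‖ + M) < ‖ζ‖ - M := by
    have : s * (‖ζ‖ + M) < ‖ζ‖ - M := by
      rwa [lt_div_iff₀ (by linarith)] at hs2
    nlinarith
  have h6 : M * ‖ζ‖ * (1 - s ^ 2) ≤ M ^ 2 * (1 + s ^ 2) := by
    rw [mul_div_assoc', div_le_iff₀ hpos] at hval
    exact hval
  nlinarith

lemma inner_eq_normSq_mul (A : H →L[ℂ] H) (y : H) (hy : y ≠ 0) :
    ∃ z ∈ numRange A, ⟪y, A y⟫_ℂ = ((‖y‖ ^ 2 : ℝ) : ℂ) * z := by
  have hn : ‖y‖ ≠ 0 := by simpa using hy
  refine ⟨⟪((‖y‖⁻¹ : ℝ) : ℂ) • y, A (((‖y‖⁻¹ : ℝ) : ℂ) • y)⟫_ℂ, ⟨_, ?_, rfl⟩, ?_⟩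
  · rw [norm_smul]; simp [hn]
  · rw [map_smul, inner_smul_left, inner_smul_right, Complex.conj_ofReal]
    have hc : ((‖y‖ : ℝ) : ℂ) ≠ 0 := by exact_mod_cast hn
    push_cast
    field_simp

theorem numRadius_le (A : H →L[ℂ] H) (P : ℂ[X]) (hdeg : 0 < P.natDegree) (M : ℝ) (hM : 0 < M)
    (hhalf : ∀ r, ‖P.eval r‖ = M → ∀ z ∈ numRange A,
      0 ≤ (conj (P.eval r) * P.derivative.eval r * (r - z)).re) :
    ∀ x : H, ‖x‖ = 1 → ‖⟪x, aeval A P x⟫_ℂ‖ ≤ M := by
  classical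
  intro x hx
  have hder : P.derivative ≠ 0 := by
    intro h
    have := derivative_eq_zero.1 h
    omega
  refine step2 _ M hM ((P.derivative.roots.toFinset.image (fun r => P.eval r) : Finset ℂ) : Set ℂ)
    (Finset.finite_toSet _) ?_
  intro v hv hvB
  have h1 := step1 A P hdeg v ?_ ?_ x
  · rw [hv, hx] at h1
    simpa using h1
  · intro r hr h0
    apply hvB
    simp only [Finset.coe_image, Set.mem_image, Finset.mem_coe, Multiset.mem_toFinset]
    exact ⟨r, (mem_roots hder).2 h0, hr⟩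
  · intro r hr y
    by_cases hy : y = 0
    · simp [hy]
    obtain ⟨z, hz, hzy⟩ := inner_eq_normSq_mul A y hy
    have h2 := hhalf r (by rw [hr, hv]) z hz
    rw [hzy, hr] at *
    have e : conj v * P.derivative.eval r * (r * ((‖y‖ ^ 2 : ℝ) : ℂ) - ((‖y‖ ^ 2 : ℝ) : ℂ) * z)
        = ((‖y‖ ^ 2 : ℝ) : ℂ) * (conj v * P.derivative.eval r * (r - z)) := by ring
    rw [e, Complex.re_ofReal_mul]
    positivity

end Vale.Agent.P123
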