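import Mathlib

namespace Vale.Agent.P123

open scoped InnerProductSpace

/-- The numerical range of a bounded operator `A`: all values `⟪x, A x⟫` (which is `⟨A x, x⟩` for
an inner product linear in the first argument) over unit vectors `x`. -/
def numRange {H : Type*} [NormedAddCommGroup H] [InnerProductSpace ℂ H] (A : H →L[ℂ] H) : Set ℂ :=
  {z | ∃ x : H, ‖x‖ = 1 ∧ z = ⟪x, A x⟫_ℂ}

/-- The supremum of `|P|` over the numerical range of `A`. -/
noncomputable def supOnRange {H : Type*} [NormedAddCommGroup H] [InnerProductSpace ℂ H]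
    (A : H →L[ℂ] H) (P : Polynomial ℂ) : ℝ :=
  sSup ((fun z : ℂ => ‖P.eval z‖) '' numRange A)

end Vale.Agent.P123
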