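import Vale.Agent.P123.Main

namespace Vale.Agent.P123
open scoped InnerProductSpace ComplexConjugate Topology
open Polynomial Filter

variable {H : Type*} [NormedAddCommGroup H] [InnerProductSpace ℂ H]

lemma numRange_bound_iff (T : H →L[ℂ] H) (M : ℝ) :
    (∀ ζ ∈ numRange T, ‖ζ‖ ≤ M) ↔ ∀ x : H, ‖x‖ = 1 → ‖⟪x, T x⟫_ℂ‖ ≤ M := by
  constructor
  · intro h x hx
    exact h _ ⟨x, hx, rfl⟩
  · rintro h _ ⟨x, hx, rfl⟩
    exact h x hx

theorem quadratic_main (A : H →L[ℂ] H) (α β γ : ℂ)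
    (hΔ : ‖β ^ 2 - 4 * α * γ‖ ≤ 2 * ‖α‖ * supOnRange A (C α * X ^ 2 + C β * X + C γ)) :
    ‖aeval A (C α * X ^ 2 + C β * X + C γ)‖ ≤ 2 * supOnRange A (C α * X ^ 2 + C β * X + C γ) ∧
    ∀ ζ ∈ numRange (aeval A (C α * X ^ 2 + C β * X + C γ)),
      ‖ζ‖ ≤ supOnRange A (C α * X ^ 2 + C β * X + C γ) := by
  set P : ℂ[X] := C α * X ^ 2 + C β * X + C γ with hP
  have hev : ∀ z, P.eval z = α * z ^ 2 + β * z + γ := by
    intro z; simp [hP]
  have hdv : ∀ z, P.derivative.eval z = 2 * α * z + β := by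
    intro z
    simp [hP, derivative_mul]
    ring
  have := wrapper A P (supOnRange A P) (supOnRange_nonneg A P)
    (fun z hz => le_supOnRange A P hz) (by
      intro M' hM' r hr z hz
      rw [hev, hdv]
      rw [hev] at hr hz
      refine quad_half α β γ r z M' hr hz (hΔ.trans ?_)
      have : 0 ≤ ‖α‖ := norm_nonneg _
      nlinarith)
  exact ⟨this.2, (numRange_bound_iff _ _).2 this.1⟩

lemma norm_eval_le_of_near (P : ℂ[X]) (c : ℂ) (ρ : ℝ) (hroots : ∀ a, P.eval a = 0 → ‖a - c‖ ≤ ρ)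
    (r : ℂ) (hr : ‖r - c‖ ≤ 4 * ρ) : ‖P.eval r‖ ≤ ‖P.leadingCoeff‖ * (5 * ρ) ^ P.natDegree := by
  by_cases hP0 : P = 0
  · simp [hP0]
  have hsplit : P.Splits := IsAlgClosed.splits P
  rw [hsplit.eval_eq_prod_roots, norm_mul]
  gcongr
  have h1 : ‖(P.roots.map fun a => r - a).prod‖ = (P.roots.map fun a => ‖r - a‖).prod := by
    have := map_multiset_prod (normHom : ℂ →*₀ ℝ) (P.roots.map fun a => r - a)
    simpa [Multiset.map_map, Function.comp_def] using this
  rw [h1, hsplit.natDegree_eq_card_roots]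
  have h2 : (P.roots.map fun a => ‖r - a‖).prod ≤ (P.roots.map fun _ => 5 * ρ).prod := by
    refine Multiset.prod_map_le_prod_map₀ _ _ (fun a _ => norm_nonneg _) ?_
    intro a ha
    have h3 := hroots a ((mem_roots hP0).1 ha)
    have h4 : ‖r - a‖ ≤ ‖r - c‖ + ‖a - c‖ := by
      have := norm_sub_le (r - c) (a - c)
      simpa using this
    linarith
  simpa using h2

lemma norm_eval_ge_of_far (P : ℂ[X]) (c : ℂ) (ρ : ℝ) (hroots : ∀ a, P.eval a = 0 → ‖a - c‖ ≤ ρ)
    (z : ℂ) (hz : 6 * ρ ≤ ‖z - c‖) : ‖P.leadingCoeff‖ * (5 * ρ) ^ P.natDegree ≤ ‖P.eval z‖ := by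
  by_cases hP0 : P = 0
  · simp [hP0]
  have hsplit : P.Splits := IsAlgClosed.splits P
  rw [hsplit.eval_eq_prod_roots, norm_mul]
  gcongr
  have h1 : ‖(P.roots.map fun a => z - a).prod‖ = (P.roots.map fun a => ‖z - a‖).prod := by
    have := map_multiset_prod (normHom : ℂ →*₀ ℝ) (P.roots.map fun a => z - a)
    simpa [Multiset.map_map, Function.comp_def] using this
  rw [h1, hsplit.natDegree_eq_card_roots]
  have h2 : (P.roots.map fun _ => 5 * ρ).prod ≤ (P.roots.map fun a => ‖z - a‖).prod := by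
    refine Multiset.prod_map_le_prod_map₀ _ _ ?_ ?_
    · intro a ha
      have h3 := hroots a ((mem_roots hP0).1 ha)
      have := norm_nonneg (a - c)
      linarith
    · intro a ha
      have h3 := hroots a ((mem_roots hP0).1 ha)
      have h4 : ‖z - c‖ - ‖a - c‖ ≤ ‖z - a‖ := by
        have := norm_sub_norm_le (z - c) (a - c)
        simpa using this
      linarith
  simpa using h2

theorem clustered_main (A : H →L[ℂ] H) (P : ℂ[X]) (c : ℂ) (ρ : ℝ)
    (hroots : ∀ a : ℂ, P.eval a = 0 → ‖a - c‖ ≤ ρ)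
    (hbig : ‖P.leadingCoeff‖ * (5 * ρ) ^ P.natDegree ≤ supOnRange A P ∨
      ∃ z ∈ numRange A, 6 * ρ ≤ ‖z - c‖) :
    ‖aeval A P‖ ≤ 2 * supOnRange A P ∧ ∀ ζ ∈ numRange (aeval A P), ‖ζ‖ ≤ supOnRange A P := by
  have hbig' : ‖P.leadingCoeff‖ * (5 * ρ) ^ P.natDegree ≤ supOnRange A P := by
    rcases hbig with h | ⟨z, hz, hzc⟩
    · exact h
    · exact (norm_eval_ge_of_far P c ρ hroots z hzc).trans (le_supOnRange A P hz)
  have := wrapper A P (supOnRange A P) (supOnRange_nonneg A P)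
    (fun z hz => le_supOnRange A P hz) (by
      intro M' hM' r hr z hz
      have hM'pos : 0 < M' := lt_of_le_of_lt (supOnRange_nonneg A P) hM'
      refine clustered_half P c ρ hroots r z ?_ ?_ (by rw [hr]; exact hz)
      · by_contra hcon
        push Not at hcon
        have := norm_eval_le_of_near P c ρ hroots r hcon.le
        linarith
      · intro h0
        rw [h0, norm_zero] at hr
        linarith)
  exact ⟨this.2, (numRange_bound_iff _ _).2 this.1⟩

lemma eq_of_star_zero (P : ℂ[X]) (hP : P ≠ 0) (z r : ℂ)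
    (hstar : StarConvex ℝ z {w : ℂ | ‖P.eval w‖ ≤ 0}) (hr : ‖P.eval r‖ ≤ 0) : r = z := by
  by_contra hne
  have hinf : Set.Infinite {w : ℂ | P.IsRoot w} := by
    have hinj : Set.InjOn (fun t : ℝ => r + (t : ℂ) * (z - r)) (Set.Icc (0 : ℝ) 1) := by
      intro s _ t _ hst
      simp only [add_right_inj] at hst
      have hzr : z - r ≠ 0 := sub_ne_zero.2 (Ne.symm hne)
      exact_mod_cast mul_right_cancel₀ hzr hst
    refine ((Set.Icc_infinite (zero_lt_one (α := ℝ))).image hinj).mono ?_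
    rintro _ ⟨t, ht, rfl⟩
    have := hstar (show r ∈ {w : ℂ | ‖P.eval w‖ ≤ 0} from hr) ht.1 (sub_nonneg.2 ht.2) (by ring)
    have e : t • z + (1 - t) • r = r + (t : ℂ) * (z - r) := by
      simp only [Complex.real_smul]
      push_cast
      ring
    rw [e] at this
    simpa [IsRoot] using this
  exact hP (eq_zero_of_infinite_isRoot P hinf)

theorem star_main (A : H →L[ℂ] H) (P : ℂ[X])
    (hstar : ∀ z ∈ numRange A, StarConvex ℝ z {w : ℂ | ‖P.eval w‖ ≤ supOnRange A P}) :
    ‖aeval A P‖ ≤ 2 * supOnRange A P ∧ ∀ ζ ∈ numRange (aeval A P), ‖ζ‖ ≤ supOnRange A P := by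
  set M := supOnRange A P with hM
  have hM0 : 0 ≤ M := supOnRange_nonneg A P
  have h1 : ∀ x : H, ‖x‖ = 1 → ‖⟪x, aeval A P x⟫_ℂ‖ ≤ M := by
    intro x hx
    by_cases hdeg : 0 < P.natDegree
    · rcases hM0.lt_or_eq with hpos | hzero
      · refine numRadius_le A P hdeg M hpos ?_ x hx
        intro r hr z hz
        exact star_half P M z r (hstar z hz) hr
      · have hP0 : P ≠ 0 := by
          rintro rfl
          simp at hdeg
        set c := ⟪x, A x⟫_ℂ with hc
        have hcW : c ∈ numRange A := ⟨x, hx, rfl⟩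
        have hall : ∀ y : H, ‖y‖ = 1 → ‖⟪y, (A - c • (1 : H →L[ℂ] H)) y⟫_ℂ‖ ≤ 0 := by
          intro y hy
          have hyW : ⟪y, A y⟫_ℂ ∈ numRange A := ⟨y, hy, rfl⟩
          have h2 := eq_of_star_zero P hP0 c ⟪y, A y⟫_ℂ (by rw [hzero]; exact hstar c hcW)
            (by rw [hzero]; exact le_supOnRange A P hyW)
          simp [h2, hy]
        have hnorm := norm_le_two_mul_of_numRadius _ 0 le_rfl hall
        have hA : A = c • (1 : H →L[ℂ] H) := by
          have : A - c • (1 : H →L[ℂ] H) = 0 := by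
            rw [← norm_le_zero_iff]; simpa using hnorm
          exact sub_eq_zero.1 this
        have hPc : P.eval c = 0 := by
          have := le_supOnRange A P hcW
          rw [← hM, ← hzero] at this
          simpa using this
        have hPA : aeval A P = 0 := by
          rw [hA, ← Algebra.algebraMap_eq_smul_one, aeval_algebraMap_apply]
          simp [hPc]
        rw [hPA]
        simpa using hM0
    · have h0 : P.natDegree = 0 := by omega
      obtain ⟨a, ha⟩ : ∃ a, P = C a := ⟨_, eq_C_of_natDegree_eq_zero h0⟩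
      have := le_supOnRange A P (⟨x, hx, rfl⟩ : ⟪x, A x⟫_ℂ ∈ numRange A)
      rw [← hM] at this
      rw [ha] at this ⊢
      simp only [eval_C] at this
      simp only [aeval_C, Algebra.algebraMap_eq_smul_one, smul_apply,
        one_apply_eq_self, inner_smul_right, inner_self_eq_norm_sq_to_K, hx]
      simpa using this
  exact ⟨norm_le_two_mul_of_numRadius _ M hM0 h1, (numRange_bound_iff _ _).2 h1⟩

end Vale.Agent.P123
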