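import Vale.Agent.P123.Core

namespace Vale.Agent.P123
open scoped InnerProductSpace ComplexConjugate Topology
open Polynomial Filter

variable {H : Type*} [NormedAddCommGroup H] [InnerProductSpace ℂ H]

lemma numRange_norm_le (A : H →L[ℂ] H) {z : ℂ} (hz : z ∈ numRange A) : ‖z‖ ≤ ‖A‖ := by
  obtain ⟨x, hx, rfl⟩ := hz
  calc ‖⟪x, A x⟫_ℂ‖ ≤ ‖x‖ * ‖A x‖ := norm_inner_le_norm _ _
    _ ≤ ‖x‖ * (‖A‖ * ‖x‖) := by gcongr; exact A.le_opNorm x
    _ = ‖A‖ := by rw [hx]; ring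

lemma bddAbove_image (A : H →L[ℂ] H) (P : ℂ[X]) :
    BddAbove ((fun z : ℂ => ‖P.eval z‖) '' numRange A) := by
  have hc : IsCompact (Metric.closedBall (0 : ℂ) ‖A‖) := isCompact_closedBall 0 ‖A‖
  have hcont : ContinuousOn (fun z : ℂ => ‖P.eval z‖) (Metric.closedBall (0 : ℂ) ‖A‖) :=
    (P.continuous.norm).continuousOn
  refine (hc.bddAbove_image hcont).mono ?_
  refine Set.image_mono ?_
  intro z hz
  simpa using numRange_norm_le A hz

lemma le_supOnRange (A : H →L[ℂ] H) (P : ℂ[X]) {z : ℂ} (hz : z ∈ numRange A) :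
    ‖P.eval z‖ ≤ supOnRange A P :=
  le_csSup (bddAbove_image A P) ⟨z, hz, rfl⟩

lemma supOnRange_nonneg (A : H →L[ℂ] H) (P : ℂ[X]) : 0 ≤ supOnRange A P := by
  refine Real.sSup_nonneg ?_
  rintro _ ⟨z, _, rfl⟩
  exact norm_nonneg _

theorem wrapper (A : H →L[ℂ] H) (P : ℂ[X]) (M : ℝ) (hM0 : 0 ≤ M)
    (hW : ∀ z ∈ numRange A, ‖P.eval z‖ ≤ M)
    (hhalf : ∀ M', M < M' → ∀ r, ‖P.eval r‖ = M' → ∀ z, ‖P.eval z‖ ≤ M' →
      0 ≤ (conj (P.eval r) * P.derivative.eval r * (r - z)).re) :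
    (∀ x : H, ‖x‖ = 1 → ‖⟪x, aeval A P x⟫_ℂ‖ ≤ M) ∧ ‖aeval A P‖ ≤ 2 * M := by
  have h1 : ∀ x : H, ‖x‖ = 1 → ‖⟪x, aeval A P x⟫_ℂ‖ ≤ M := by
    intro x hx
    by_cases hdeg : 0 < P.natDegree
    · refine le_of_forall_pos_le_add ?_
      intro ε hε
      refine numRadius_le A P hdeg (M + ε) (by linarith) ?_ x hx
      intro r hr z hz
      exact hhalf (M + ε) (by linarith) r hr z ((hW z hz).trans (by linarith))
    · have h0 : P.natDegree = 0 := by omega
      obtain ⟨a, rfl⟩ : ∃ a, P = C a := ⟨_, eq_C_of_natDegree_eq_zero h0⟩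
      have := hW ⟪x, A x⟫_ℂ ⟨x, hx, rfl⟩
      simp only [eval_C] at this
      simp only [aeval_C, Algebra.algebraMap_eq_smul_one, smul_apply,
        one_apply_eq_self, inner_smul_right, inner_self_eq_norm_sq_to_K, hx]
      simpa using this
  exact ⟨h1, norm_le_two_mul_of_numRadius _ M hM0 h1⟩

lemma quad_half (α β γ r w : ℂ) (M : ℝ) (hr : ‖α * r ^ 2 + β * r + γ‖ = M)
    (hw : ‖α * w ^ 2 + β * w + γ‖ ≤ M) (hΔ : ‖β ^ 2 - 4 * α * γ‖ ≤ 2 * ‖α‖ * M) :
    0 ≤ (conj (α * r ^ 2 + β * r + γ) * (2 * α * r + β) * (r - w)).re := by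
  set v := α * r ^ 2 + β * r + γ with hv
  set p := 2 * α * r + β with hp
  set η := r - w with hη
  set Δ := β ^ 2 - 4 * α * γ with hD
  have hM : 0 ≤ M := hr ▸ norm_nonneg _
  have hpp : p ^ 2 = 4 * α * v + Δ := by rw [hp, hv, hD]; ring
  have hid : 4 * v * (α * w ^ 2 + β * w + γ) = (2 * v - p * η) ^ 2 - Δ * η ^ 2 := by
    have hw' : w = r - η := by rw [hη]; ring
    have : Δ = p ^ 2 - 4 * α * v := by rw [hpp]; ring
    rw [this, hw', hv, hp]
    ring
  have hΔp : ‖Δ‖ ≤ ‖p‖ ^ 2 := by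
    rw [← norm_pow, hpp]
    have h1 : ‖4 * α * v‖ - ‖Δ‖ ≤ ‖4 * α * v + Δ‖ := by
      have := norm_sub_norm_le (4 * α * v) (-Δ)
      simpa [sub_neg_eq_add] using this
    have h2 : ‖4 * α * v‖ = 4 * ‖α‖ * M := by
      rw [norm_mul, norm_mul, hr]; simp
    linarith
  have h3 : ‖2 * v - p * η‖ ^ 2 - ‖Δ‖ * ‖η‖ ^ 2 ≤ 4 * M * M := by
    have h4 : ‖(2 * v - p * η) ^ 2‖ - ‖Δ * η ^ 2‖ ≤ ‖(2 * v - p * η) ^ 2 - Δ * η ^ 2‖ :=
      norm_sub_norm_le _ _
    rw [← hid, norm_pow, norm_mul, norm_pow, norm_mul, norm_mul, hr] at h4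
    have h5 : ‖(4 : ℂ)‖ = 4 := by simp
    rw [h5] at h4
    have : 4 * M * ‖α * w ^ 2 + β * w + γ‖ ≤ 4 * M * M := by gcongr
    linarith
  have h6 : ‖2 * v - p * η‖ ^ 2 = 4 * M ^ 2 + ‖p‖ ^ 2 * ‖η‖ ^ 2 - 4 * (conj v * p * η).re := by
    rw [← Complex.normSq_eq_norm_sq, Complex.normSq_sub, Complex.normSq_eq_norm_sq,
      Complex.normSq_eq_norm_sq, norm_mul, norm_mul, hr]
    have e1 : ‖(2 : ℂ)‖ = 2 := by simp
    have e2 : (2 * v * conj (p * η)).re = 2 * (conj v * p * η).re := by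
      have : 2 * v * conj (p * η) = conj (2 * (conj v * p * η)) := by
        simp only [map_mul, Complex.conj_conj, map_ofNat]
        ring
      rw [this, Complex.conj_re]
      simp
    rw [e1, e2]
    ring
  have h7 : ‖Δ‖ * ‖η‖ ^ 2 ≤ ‖p‖ ^ 2 * ‖η‖ ^ 2 := by gcongr
  nlinarith

lemma per_root (y0 g : ℂ) (hg : ‖g - 1‖ ≤ 1 / 3) (ha : y0.re < ‖y0‖ / 3) :
    0 < (1 + 4 / 9 * ‖y0‖ ^ 2 - 2 * y0.re) ^ 2 - 4 / 9 * ‖y0‖ ^ 2 ∧
    Real.exp (-(2 / ((1 + 4 / 9 * ‖y0‖ ^ 2 - 2 * y0.re) ^ 2 - 4 / 9 * ‖y0‖ ^ 2)) * (y0 * g).re)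
      ≤ ‖1 - y0 * g‖ ^ 2 := by
  set σ := ‖y0‖ with hσ
  set a0 := y0.re with ha0
  set C0 := 1 + 4 / 9 * σ ^ 2 - 2 * a0 with hC0
  set D := C0 ^ 2 - 4 / 9 * σ ^ 2 with hD
  set y := y0 * g with hy
  have hσ0 : 0 ≤ σ := norm_nonneg _
  set e := y.re - a0 with he
  have he_abs : |e| ≤ σ / 3 := by
    have h1 : e = (y0 * (g - 1)).re := by
      rw [he, hy, ha0, mul_sub, mul_one, Complex.sub_re]
    rw [h1]
    calc |(y0 * (g - 1)).re| ≤ ‖y0 * (g - 1)‖ := Complex.abs_re_le_norm _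
      _ = σ * ‖g - 1‖ := by rw [norm_mul]
      _ ≤ σ * (1 / 3) := by gcongr
      _ = σ / 3 := by ring
  have hgn : 2 / 3 ≤ ‖g‖ := by
    have : ‖(1 : ℂ)‖ - ‖g‖ ≤ ‖1 - g‖ := norm_sub_norm_le _ _
    rw [norm_one, norm_sub_rev] at this
    linarith
  have hyn : 4 / 9 * σ ^ 2 ≤ ‖y‖ ^ 2 := by
    rw [hy, norm_mul, mul_pow]
    have : (2 / 3 : ℝ) ^ 2 ≤ ‖g‖ ^ 2 := by gcongr
    nlinarith [sq_nonneg σ]
  have hf : ‖1 - y‖ ^ 2 = 1 - 2 * y.re + ‖y‖ ^ 2 := by
    rw [← Complex.normSq_eq_norm_sq, Complex.normSq_sub, Complex.normSq_eq_norm_sq,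
      Complex.normSq_eq_norm_sq]
    simp
    ring
  have he1 := (abs_le.1 he_abs).1
  have he2 := (abs_le.1 he_abs).2
  have hpos1 : 0 < C0 - 2 * (σ / 3) := by
    have : 0 ≤ (1 - 2 / 3 * σ) ^ 2 := sq_nonneg _
    rw [hC0]
    nlinarith
  have hpos2 : 0 < C0 + 2 * (σ / 3) := by linarith
  have hDpos : 0 < D := by
    have : D = (C0 - 2 * (σ / 3)) * (C0 + 2 * (σ / 3)) := by rw [hD]; ring
    rw [this]
    exact mul_pos hpos1 hpos2
  refine ⟨hDpos, ?_⟩
  set f := ‖1 - y‖ ^ 2 with hfdef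
  have hfge : C0 - 2 * e ≤ f := by
    rw [hf, hC0, he]
    linarith
  have hfpos : 0 < f := by linarith
  rw [← Real.le_log_iff_exp_le hfpos]
  have hlog := Real.one_sub_inv_le_log_of_pos hfpos
  refine le_trans ?_ hlog
  have hinv : f⁻¹ ≤ (C0 + 2 * e) / D := by
    rw [inv_le_iff_one_le_mul₀ hfpos, div_mul_eq_mul_div, le_div_iff₀ hDpos, one_mul,
      mul_comm (C0 + 2 * e) f]
    have h1 : 0 ≤ C0 + 2 * e := by linarith
    have h2 : (C0 - 2 * e) * (C0 + 2 * e) ≤ f * (C0 + 2 * e) := by gcongr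
    have h3 : e ^ 2 ≤ (σ / 3) ^ 2 := sq_le_sq' (by linarith) he2
    rw [hD]
    nlinarith
  have hkey : -(2 / D) * y.re ≤ 1 - (C0 + 2 * e) / D := by
    have : 1 - (C0 + 2 * e) / D - (-(2 / D) * y.re) = (4 / 9 * σ ^ 2 - 2 * a0) ^ 2 / D := by
      field_simp
      rw [hD, he, hC0]
      ring
    have h2 : 0 ≤ (4 / 9 * σ ^ 2 - 2 * a0) ^ 2 / D := by positivity
    linarith
  linarith

lemma clustered_half (P : ℂ[X]) (c : ℂ) (ρ : ℝ) (hroots : ∀ a, P.eval a = 0 → ‖a - c‖ ≤ ρ)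
    (r w : ℂ) (hr : 4 * ρ ≤ ‖r - c‖) (hPr : P.eval r ≠ 0) (hw : ‖P.eval w‖ ≤ ‖P.eval r‖) :
    0 ≤ (conj (P.eval r) * P.derivative.eval r * (r - w)).re := by
  have hP0 : P ≠ 0 := by
    rintro rfl
    simp at hPr
  have hsplit : P.Splits := IsAlgClosed.splits P
  have hder := hsplit.eval_derivative_eq_eval_mul_sum hPr
  set η := r - w with hη
  have hmem : ∀ a ∈ P.roots, P.eval a = 0 := fun a ha => (mem_roots hP0).1 ha
  have hne : ∀ a ∈ P.roots, r - a ≠ 0 := by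
    intro a ha h
    rw [sub_eq_zero] at h
    exact hPr (h ▸ hmem a ha)
  have e1 : conj (P.eval r) * P.derivative.eval r * η
      = ((Complex.normSq (P.eval r) : ℝ) : ℂ) * (P.roots.map fun a => η / (r - a)).sum := by
    rw [hder, ← Complex.mul_conj]
    have : (P.roots.map fun a => η / (r - a)).sum = η * (P.roots.map fun a => 1 / (r - a)).sum := by
      rw [← Multiset.sum_map_mul_left]
      simp [div_eq_mul_inv]
    rw [this]
    ring
  rw [e1, Complex.re_ofReal_mul]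
  refine mul_nonneg (Complex.normSq_nonneg _) ?_
  have e2 : ((P.roots.map fun a => η / (r - a)).sum).re
      = (P.roots.map fun a => (η / (r - a)).re).sum := by
    have := map_multiset_sum Complex.reAddGroupHom (P.roots.map fun a => η / (r - a))
    simpa [Multiset.map_map, Function.comp_def] using this
  rw [e2]
  by_cases hrc : r = c
  · have : P.roots = 0 := by
      rw [Multiset.eq_zero_iff_forall_notMem]
      intro a ha
      have h1 := hroots a (hmem a ha)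
      rw [hrc, sub_self, norm_zero] at hr
      have h2 : ‖a - c‖ = 0 := le_antisymm (by linarith) (norm_nonneg _)
      have h3 : a = c := by simpa [sub_eq_zero] using h2
      exact hne a ha (by rw [hrc, h3, sub_self])
    rw [this]; simp
  have hrc' : r - c ≠ 0 := sub_ne_zero.2 hrc
  set y0 := η / (r - c) with hy0
  have hg : ∀ a ∈ P.roots, ‖(r - c) / (r - a) - 1‖ ≤ 1 / 3 := by
    intro a ha
    have h1 := hroots a (hmem a ha)
    have h2 : (r - c) / (r - a) - 1 = (a - c) / (r - a) := by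
      have := hne a ha
      field_simp
      ring
    rw [h2, norm_div, div_le_iff₀ (by simpa using hne a ha)]
    have h3 : ‖r - c‖ - ‖a - c‖ ≤ ‖r - a‖ := by
      have := norm_sub_norm_le (r - c) (a - c)
      simpa using this
    linarith
  have hyg : ∀ a ∈ P.roots, η / (r - a) = y0 * ((r - c) / (r - a)) := by
    intro a ha
    have := hne a ha
    rw [hy0]
    field_simp
  by_cases ha0 : y0.re < ‖y0‖ / 3
  · set κ := 2 / ((1 + 4 / 9 * ‖y0‖ ^ 2 - 2 * y0.re) ^ 2 - 4 / 9 * ‖y0‖ ^ 2) with hκ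
    have hκpos : 0 < κ := by
      have := (per_root y0 1 (by simp) ha0).1
      rw [hκ]
      positivity
    have hprod : (P.roots.map fun a => Real.exp (-κ * (η / (r - a)).re)).prod
        ≤ (P.roots.map fun a => ‖(w - a) / (r - a)‖ ^ 2).prod := by
      refine Multiset.prod_map_le_prod_map₀ _ _ (fun a _ => (Real.exp_pos _).le) ?_
      intro a ha
      have h1 := (per_root y0 _ (hg a ha) ha0).2
      rw [← hyg a ha] at h1
      have h2 : 1 - η / (r - a) = (w - a) / (r - a) := by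
        have := hne a ha
        rw [hη]
        field_simp
        ring
      rw [h2] at h1
      exact h1
    have hL : (P.roots.map fun a => Real.exp (-κ * (η / (r - a)).re)).prod
        = Real.exp (-κ * (P.roots.map fun a => (η / (r - a)).re).sum) := by
      rw [← Multiset.sum_map_mul_left, Real.exp_multiset_sum, Multiset.map_map]
      rfl
    have hR : (P.roots.map fun a => ‖(w - a) / (r - a)‖ ^ 2).prod
        = (‖P.eval w‖ / ‖P.eval r‖) ^ 2 := by
      rw [hsplit.eval_eq_prod_roots, hsplit.eval_eq_prod_roots, norm_mul, norm_mul]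
      have hlc : ‖P.leadingCoeff‖ ≠ 0 := by simpa using hP0
      rw [mul_div_mul_left _ _ hlc]
      have h1 : ∀ x : ℂ, ‖(P.roots.map fun a => x - a).prod‖
          = (P.roots.map fun a => ‖x - a‖).prod := by
        intro x
        have := map_multiset_prod (normHom : ℂ →*₀ ℝ) (P.roots.map fun a => x - a)
        simpa [Multiset.map_map, Function.comp_def] using this
      rw [h1, h1, ← Multiset.prod_map_div, ← Multiset.prod_map_pow]
      simp
    rw [hL, hR] at hprod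
    have h1 : (‖P.eval w‖ / ‖P.eval r‖) ^ 2 ≤ 1 := by
      have hpos : 0 < ‖P.eval r‖ := by simpa using hPr
      have : ‖P.eval w‖ / ‖P.eval r‖ ≤ 1 := by
        rw [div_le_one hpos]; exact hw
      have h0 : 0 ≤ ‖P.eval w‖ / ‖P.eval r‖ := by positivity
      nlinarith
    have h2 : Real.exp (-κ * (P.roots.map fun a => (η / (r - a)).re).sum) ≤ Real.exp 0 := by
      rw [Real.exp_zero]; exact hprod.trans h1
    have h3 := Real.exp_le_exp.1 h2
    by_contra hneg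
    push Not at hneg
    nlinarith
  · push Not at ha0
    refine Multiset.sum_nonneg ?_
    intro t ht
    obtain ⟨a, ha, rfl⟩ := Multiset.mem_map.1 ht
    rw [hyg a ha]
    have h1 : (y0 * ((r - c) / (r - a))).re = y0.re + (y0 * ((r - c) / (r - a) - 1)).re := by
      rw [mul_sub, mul_one, Complex.sub_re]; ring
    have h2 : |(y0 * ((r - c) / (r - a) - 1)).re| ≤ ‖y0‖ / 3 := by
      calc |(y0 * ((r - c) / (r - a) - 1)).re| ≤ ‖y0 * ((r - c) / (r - a) - 1)‖ :=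
            Complex.abs_re_le_norm _
        _ = ‖y0‖ * ‖(r - c) / (r - a) - 1‖ := by rw [norm_mul]
        _ ≤ ‖y0‖ * (1 / 3) := by gcongr; exact hg a ha
        _ = ‖y0‖ / 3 := by ring
    have := (abs_le.1 h2).1
    rw [h1]
    linarith

lemma star_half (P : ℂ[X]) (M : ℝ) (z r : ℂ)
    (hstar : StarConvex ℝ z {w : ℂ | ‖P.eval w‖ ≤ M}) (hr : ‖P.eval r‖ = M) :
    0 ≤ (conj (P.eval r) * P.derivative.eval r * (r - z)).re := by
  set g : ℝ → ℂ := fun t => P.eval (r + (t : ℂ) * (z - r)) with hg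
  have hgd : HasDerivAt g (P.derivative.eval r * (z - r)) 0 := by
    have h1 : HasDerivAt (fun t : ℝ => r + (t : ℂ) * (z - r)) (z - r) 0 := by
      have h2 : HasDerivAt (fun t : ℝ => (t : ℂ)) 1 0 := Complex.ofRealCLM.hasDerivAt
      simpa using (h2.mul_const (z - r)).const_add r
    have h3 : HasDerivAt (fun w : ℂ => P.eval w) (P.derivative.eval (r + ((0 : ℝ) : ℂ) * (z - r)))
        (r + ((0 : ℝ) : ℂ) * (z - r)) := P.hasDerivAt _
    have h4 := h3.scomp (0 : ℝ) h1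
    have h5 : (z - r) • P.derivative.eval (r + ((0 : ℝ) : ℂ) * (z - r))
        = P.derivative.eval r * (z - r) := by
      simp [mul_comm]
    rw [h5] at h4
    exact h4
  have hφ := hgd.norm_sq
  have hslope := hφ.tendsto_slope_zero_right
  have hle : ∀ᶠ t in 𝓝[>] (0 : ℝ), t⁻¹ • (‖g (0 + t)‖ ^ 2 - ‖g 0‖ ^ 2) ≤ 0 := by
    have : Set.Ioc (0 : ℝ) 1 ∈ 𝓝[>] (0 : ℝ) := Ioc_mem_nhdsGT one_pos
    filter_upwards [this] with t ht
    have hmem : r + (t : ℂ) * (z - r) ∈ {w : ℂ | ‖P.eval w‖ ≤ M} := by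
      have := hstar (show r ∈ {w : ℂ | ‖P.eval w‖ ≤ M} from hr.le) ht.1.le
        (sub_nonneg.2 ht.2) (by ring)
      have e : t • z + (1 - t) • r = r + (t : ℂ) * (z - r) := by
        simp only [Complex.real_smul]
        push_cast
        ring
      rwa [e] at this
    have h0 : ‖g 0‖ = M := by simp [hg, hr]
    have h1 : ‖g (0 + t)‖ ≤ M := by simpa [hg] using hmem
    have h2 : ‖g (0 + t)‖ ^ 2 ≤ M ^ 2 := by gcongr
    rw [h0, smul_eq_mul]
    have : 0 < t⁻¹ := inv_pos.2 ht.1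
    nlinarith
  have hlim := le_of_tendsto hslope hle
  have hg0 : g 0 = P.eval r := by simp [hg]
  rw [hg0] at hlim
  have e : (inner ℝ (P.eval r) (P.derivative.eval r * (z - r)) : ℝ)
      = (conj (P.eval r) * (P.derivative.eval r * (z - r))).re := by
    rw [Complex.inner, mul_comm]
  rw [e] at hlim
  have e2 : conj (P.eval r) * P.derivative.eval r * (r - z)
      = -(conj (P.eval r) * (P.derivative.eval r * (z - r))) := by ring
  rw [e2, Complex.neg_re]
  linarith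

end Vale.Agent.P123
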